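import Mathlib

/-! # P346, section 6: the weight of the good set (Galton-Watson chain) -/

namespace Vale.P346.H32

open Finset

/-- `kk m j u`: number of elements (`true`) of `u` before its `j`-th non-element
(`false`); all elements if there are fewer than `j` non-elements. -/
def kk : (m : ℕ) → ℕ → (Fin m → Bool) → ℕ
  | 0, _, _ => 0
  | _ + 1, 0, _ => 0
  | m + 1, j + 1, u =>
      if u 0 = true then 1 + kk m (j + 1) (Fin.tail u) else kk m j (Fin.tail u)

@[simp] theorem kk_zero (m : ℕ) (u : Fin m → Bool) : kk m 0 u = 0 := by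
  cases m <;> rfl

theorem kk_succ (m j : ℕ) (u : Fin (m + 1) → Bool) : kk (m + 1) (j + 1) u =
    if u 0 = true then 1 + kk m (j + 1) (Fin.tail u) else kk m j (Fin.tail u) := rfl

/-- weight of a subset -/
def bw (m : ℕ) (l : ℝ) (u : Fin m → Bool) : ℝ := ∏ y, if u y = true then l else 1

theorem sum_bool_succ (m : ℕ) (F : (Fin (m + 1) → Bool) → ℝ) :
    ∑ u, F u = ∑ u : Fin m → Bool, F (Fin.cons false u) + ∑ u : Fin m → Bool, F (Fin.cons true u) := by
  have h := (Fin.consEquiv (fun _ : Fin (m + 1) => Bool)).sum_comp F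
  rw [← h, Fintype.sum_prod_type]
  simp [Fin.consEquiv, add_comm]

theorem bw_cons (m : ℕ) (l : ℝ) (a : Bool) (u : Fin m → Bool) :
    bw (m + 1) l (Fin.cons a u : Fin (m+1) → Bool) = (if a = true then l else 1) * bw m l u := by
  simp [bw, Fin.prod_univ_succ]

theorem sum_bw (m : ℕ) (l : ℝ) : ∑ u, bw m l u = (1 + l) ^ m := by
  induction m with
  | zero => simp [bw]
  | succ m ih =>
    rw [sum_bool_succ]
    simp only [bw_cons, Bool.false_eq_true, if_false, one_mul, if_true, ← Finset.mul_sum, ih]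
    ring

theorem bw_nonneg (m : ℕ) {l : ℝ} (hl : 0 ≤ l) (u : Fin m → Bool) : 0 ≤ bw m l u := by
  unfold bw
  apply Finset.prod_nonneg
  intro y _
  split_ifs
  · exact hl
  · exact zero_le_one

/-- One block. -/
theorem block (b : ℕ) (l s : ℝ) (hl : 0 < l) (hs0 : 0 ≤ s) (hs1 : s ≤ 1) :
    ∀ (m j c : ℕ), (j = 0 ∨ b + j ≤ m + c + 1) →
      (1 + l) ^ m * ((1 - s ^ b) * (1 - (1 / (1 + l * (1 - s))) ^ j * s ^ c)) ≤
        ∑ u, bw m l u * (1 - s ^ (min b (c + kk m j u))) := by
  set f := 1 / (1 + l * (1 - s)) with hf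
  have hden : 0 < 1 + l * (1 - s) := by nlinarith
  have hfrec : (1 + l) * f = 1 + l * f * s := by
    rw [hf]; field_simp; ring
  have hf0 : 0 ≤ f := by rw [hf]; positivity
  have hsb : 0 ≤ 1 - s ^ b := by
    have := pow_le_one₀ (n := b) hs0 hs1
    linarith
  have base : ∀ m c : ℕ, (1 + l) ^ m * ((1 - s ^ b) * (1 - s ^ c)) ≤
      ∑ u, bw m l u * (1 - s ^ (min b (c + kk m 0 u))) := by
    intro m c
    simp only [kk_zero, add_zero]
    rw [← Finset.sum_mul, sum_bw]
    apply mul_le_mul_of_nonneg_left _ (by positivity)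
    have hc0 : 0 ≤ s ^ c := pow_nonneg hs0 c
    have hc1 := pow_le_one₀ (n := c) hs0 hs1
    have hb0 : 0 ≤ s ^ b := pow_nonneg hs0 b
    rcases le_total b c with h | h
    · rw [min_eq_left h]; nlinarith
    · rw [min_eq_right h]; nlinarith
  intro m
  induction m with
  | zero =>
    intro j c hjc
    rcases Nat.eq_zero_or_pos j with rfl | hj
    · simpa using base 0 c
    · have hbc : b ≤ c := by omega
      have : ∀ u : Fin 0 → Bool, min b (c + kk 0 j u) = b := by
        intro u; apply min_eq_left; omega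
      simp only [this]
      rw [← Finset.sum_mul, sum_bw]
      apply mul_le_mul_of_nonneg_left _ (by positivity)
      have : 0 ≤ f ^ j * s ^ c := by positivity
      nlinarith
  | succ m ih =>
    intro j c hjc
    cases j with
    | zero => simpa using base (m + 1) c
    | succ j =>
      have h1 := ih j c (by omega)
      have h2 := ih (j + 1) (c + 1) (by omega)
      rw [sum_bool_succ]
      simp only [bw_cons, kk_succ, Fin.cons_zero, Fin.tail_cons, Bool.false_eq_true, if_false,
        if_true, one_mul]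
      have e2 : ∀ u : Fin m → Bool, l * bw m l u * (1 - s ^ (min b (c + (1 + kk m (j + 1) u)))) =
          l * (bw m l u * (1 - s ^ (min b (c + 1 + kk m (j + 1) u)))) := by
        intro u; rw [add_assoc]; ring
      simp only [e2]
      rw [← Finset.mul_sum]
      have h3 := mul_le_mul_of_nonneg_left h2 hl.le
      refine le_trans (le_of_eq ?_) (add_le_add h1 h3)
      have : (1 + l) ^ (m+1) * ((1 - s ^ b) * (1 - f ^ (j+1) * s ^ c))
        = (1 + l) ^ m * (1 - s ^ b) * ((1 + l) - ((1 + l) * f) * f ^ j * s ^ c) := by ring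
      rw [this, hfrec]
      ring

/-- The good sets: `good b m T j U`. -/
def good (b m : ℕ) : (T : ℕ) → ℕ → (Fin T → Fin m → Bool) → Prop
  | 0, j, _ => 1 ≤ j
  | T + 1, j, U => good b m T (min b (kk m j (U 0))) (Fin.tail U)

theorem sum_cons_succ (m T : ℕ) (F : (Fin (T + 1) → Fin m → Bool) → ℝ) :
    ∑ U, F U = ∑ u : Fin m → Bool, ∑ U : Fin T → Fin m → Bool, F (Fin.cons u U) := by
  have h := (Fin.consEquiv (fun _ : Fin (T + 1) => Fin m → Bool)).sum_comp F
  rw [← h, Fintype.sum_prod_type]
  simp [Fin.consEquiv]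

/-- weight of a tuple of subsets -/
noncomputable def tw (m T : ℕ) (l : Fin T → ℝ) (U : Fin T → Fin m → Bool) : ℝ := ∏ t, bw m (l t) (U t)

open Classical in
/-- total weight of the good set -/
noncomputable def GW (b m T : ℕ) (j : ℕ) (l : Fin T → ℝ) : ℝ :=
  ∑ U : Fin T → Fin m → Bool, if good b m T j U then tw m T l U else 0

theorem one_sub_pow_ratio (x y : ℝ) (hx : 0 < x) (hxy : x ≤ y) (hy : y ≤ 1) (j : ℕ) :
    x / y * (1 - (1 - y) ^ j) ≤ 1 - (1 - x) ^ j := by
  have hy0 : 0 < y := lt_of_lt_of_le hx hxy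
  have gx : 1 - (1 - x) ^ j = x * ∑ i ∈ range j, (1 - x) ^ i := by
    have := mul_neg_geom_sum (1 - x) j
    rw [← this]; ring
  have gy : 1 - (1 - y) ^ j = y * ∑ i ∈ range j, (1 - y) ^ i := by
    have := mul_neg_geom_sum (1 - y) j
    rw [← this]; ring
  rw [gx, gy]
  have : x / y * (y * ∑ i ∈ range j, (1 - y) ^ i) = x * ∑ i ∈ range j, (1 - y) ^ i := by
    field_simp
  rw [this]
  apply mul_le_mul_of_nonneg_left _ hx.le
  apply Finset.sum_le_sum
  intro i _
  apply pow_le_pow_left₀ (by linarith)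
  linarith

/-- The chain. Suffix products `β * ∏_{t ≥ i} l t` in `[a, d]`, `0 < a`, `d ≤ 1`. -/
theorem chain (n m : ℕ) (hm : 2 * n ≤ m + 1) (β a d : ℝ) (ha : 0 < a) (hd : d ≤ 1)
    (haβ : a ≤ β) (hβd : β ≤ d) :
    ∀ (T : ℕ) (l : Fin T → ℝ), (∀ t, 0 < l t) →
      (∀ i : ℕ, a ≤ β * ∏ t : Fin T, (if i ≤ t.val then l t else 1) ∧
        β * ∏ t : Fin T, (if i ≤ t.val then l t else 1) ≤ d) →
      ∀ j, j ≤ n →
        (∏ t, (1 + l t) ^ m) * (((1 - (1 - a) ^ n) / (1 + d)) ^ T *
          (1 - (1 - β * ∏ t, l t) ^ j)) ≤ GW n m T j l := by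
  intro T
  induction T with
  | zero =>
    intro l _ _ j _
    simp only [GW, good, tw, Finset.univ_unique, Finset.prod_empty, Finset.univ_eq_empty,
      pow_zero, one_mul, mul_one, Finset.sum_const, Finset.card_singleton, one_smul]
    rcases Nat.eq_zero_or_pos j with rfl | hj
    · simp
    · have : 1 ≤ j := hj
      simp only [this, if_true]
      have : 0 ≤ (1 - β) ^ j := pow_nonneg (by linarith) j
      linarith
  | succ T ih =>
    intro l hl hprod j hj
    set l' : Fin T → ℝ := Fin.tail l with hl'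
    have hl0 := hl 0
    have hl'pos : ∀ t, 0 < l' t := fun t => hl _
    have htail : ∀ i : ℕ, ∏ t : Fin (T+1), (if i + 1 ≤ t.val then l t else 1) =
        ∏ t : Fin T, (if i ≤ t.val then l' t else 1) := by
      intro i
      rw [Fin.prod_univ_succ]
      simp [hl', Fin.tail]
    have hprod' : ∀ i : ℕ, a ≤ β * ∏ t : Fin T, (if i ≤ t.val then l' t else 1) ∧
        β * ∏ t : Fin T, (if i ≤ t.val then l' t else 1) ≤ d := by
      intro i; rw [← htail]; exact hprod (i + 1)
    set q := β * ∏ t, l' t with hq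
    have hq' : β * ∏ t, l t = l 0 * q := by
      rw [Fin.prod_univ_succ, hq]
      simp only [hl', Fin.tail]
      ring
    have hqa : a ≤ q ∧ q ≤ d := by
      have := hprod' 0
      simpa using this
    have hq2 : a ≤ l 0 * q ∧ l 0 * q ≤ d := by
      have := hprod 0
      simp only [Nat.zero_le, if_true] at this
      rw [hq'] at this
      exact this
    have hq0 : 0 < q := lt_of_lt_of_le ha hqa.1
    have hlq0 : 0 < l 0 * q := mul_pos hl0 hq0
    -- decompose GW
    have hGW : GW n m (T + 1) j l = ∑ u : Fin m → Bool, bw m (l 0) u *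
        GW n m T (min n (kk m j u)) l' := by
      unfold GW
      rw [sum_cons_succ]
      apply Finset.sum_congr rfl
      intro u _
      rw [Finset.mul_sum]
      apply Finset.sum_congr rfl
      intro U _
      have hg : good n m (T + 1) j (Fin.cons u U : Fin (T+1) → Fin m → Bool) ↔
          good n m T (min n (kk m j u)) U := Iff.rfl
      have ht : tw m (T + 1) l (Fin.cons u U : Fin (T+1) → Fin m → Bool) =
          bw m (l 0) u * tw m T l' U := by
        simp only [tw, Fin.prod_univ_succ, Fin.cons_zero, Fin.cons_succ, hl', Fin.tail]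
      rw [ht]
      by_cases hgo : good n m T (min n (kk m j u)) U
      · rw [if_pos (hg.2 hgo), if_pos hgo]
      · rw [if_neg (fun h => hgo (hg.1 h)), if_neg hgo, mul_zero]
    rw [hGW, hq']
    set γ := ((1 - (1 - a) ^ n) / (1 + d)) with hγ
    have had : a ≤ 1 := by linarith
    have hd0 : 0 < d := lt_of_lt_of_le ha (le_trans haβ hβd)
    have h1a : 0 ≤ 1 - (1 - a) ^ n := by
      have := pow_le_one₀ (n := n) (show 0 ≤ 1 - a by linarith) (by linarith)
      linarith
    have hγ0 : 0 ≤ γ := by rw [hγ]; positivity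
    have hP0 : 0 < ∏ t, (1 + l' t) ^ m := Finset.prod_pos (fun t _ => by
      have := hl'pos t
      positivity)
    have step1 : ∑ u : Fin m → Bool, bw m (l 0) u * ((∏ t, (1 + l' t) ^ m) *
        (γ ^ T * (1 - (1 - q) ^ (min n (kk m j u))))) ≤
        ∑ u : Fin m → Bool, bw m (l 0) u * GW n m T (min n (kk m j u)) l' := by
      apply Finset.sum_le_sum
      intro u _
      apply mul_le_mul_of_nonneg_left _ (bw_nonneg m hl0.le u)
      exact ih l' hl'pos hprod' _ (min_le_left _ _)
    refine le_trans ?_ step1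
    have hb := block n (l 0) (1 - q) hl0 (by linarith) (by linarith) m j 0 (by
      rcases Nat.eq_zero_or_pos j with h | h
      · exact Or.inl h
      · right; omega)
    have e1 : ∑ u : Fin m → Bool, bw m (l 0) u * ((∏ t, (1 + l' t) ^ m) *
        (γ ^ T * (1 - (1 - q) ^ (min n (kk m j u))))) =
        ((∏ t, (1 + l' t) ^ m) * γ ^ T) *
          ∑ u, bw m (l 0) u * (1 - (1 - q) ^ (min n (0 + kk m j u))) := by
      rw [Finset.mul_sum]
      apply Finset.sum_congr rfl
      intro u _
      rw [zero_add]; ring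
    rw [e1]
    have hPγ : 0 ≤ (∏ t, (1 + l' t) ^ m) * γ ^ T := by positivity
    refine le_trans ?_ (mul_le_mul_of_nonneg_left hb hPγ)
    -- remaining real inequality
    have e2 : ∏ t, (1 + l t) ^ m = (1 + l 0) ^ m * ∏ t, (1 + l' t) ^ m := by
      rw [Fin.prod_univ_succ]; simp only [hl', Fin.tail]
    rw [e2, pow_succ]
    have key : γ * (1 - (1 - l 0 * q) ^ j) ≤
        (1 - (1 - q) ^ n) * (1 - (1 / (1 + l 0 * (1 - (1 - q)))) ^ j * (1 - q) ^ 0) := by
      rw [pow_zero, mul_one]
      have hφ : 1 / (1 + l 0 * (1 - (1 - q))) = 1 - (l 0 * q) / (1 + l 0 * q) := by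
        have : (1 + l 0 * (1 - (1 - q))) = 1 + l 0 * q := by ring
        rw [this]
        have h : 1 + l 0 * q ≠ 0 := by positivity
        field_simp
        ring
      rw [hφ]
      have r1 := one_sub_pow_ratio ((l 0 * q) / (1 + l 0 * q)) (l 0 * q) (by positivity)
        (div_le_self hlq0.le (by linarith)) (by linarith) j
      have r2 : (l 0 * q) / (1 + l 0 * q) / (l 0 * q) = 1 / (1 + l 0 * q) := by
        field_simp
      rw [r2] at r1
      have A0 : 0 ≤ 1 - (1 - l 0 * q) ^ j := by
        have := pow_le_one₀ (n := j) (show 0 ≤ 1 - l 0 * q by linarith) (by linarith)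
        linarith
      have hpa : (1 - q) ^ n ≤ (1 - a) ^ n := by
        apply pow_le_pow_left₀ (by linarith)
        linarith
      calc γ * (1 - (1 - l 0 * q) ^ j)
          ≤ ((1 - (1 - q) ^ n) * (1 / (1 + l 0 * q))) * (1 - (1 - l 0 * q) ^ j) := by
            apply mul_le_mul_of_nonneg_right _ A0
            rw [hγ, div_eq_mul_one_div]
            apply mul_le_mul
            · linarith
            · apply one_div_le_one_div_of_le (by positivity); linarith
            · positivity
            · linarith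
        _ = (1 - (1 - q) ^ n) * ((1 / (1 + l 0 * q)) * (1 - (1 - l 0 * q) ^ j)) := by ring
        _ ≤ _ := by
            apply mul_le_mul_of_nonneg_left r1
            linarith
    have hfin : 0 ≤ (1 + l 0) ^ m * ((∏ t, (1 + l' t) ^ m) * γ ^ T) := by positivity
    have := mul_le_mul_of_nonneg_left key hfin
    nlinarith [this]

/-- The weight of the good set `S_{T,1}` is at least `γ^T * a` times the total weight. -/
theorem GW_one_ge (n m : ℕ) (hn : 1 ≤ n) (hm : 2 * n ≤ m + 1) (β a d : ℝ) (ha : 0 < a)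
    (hd : d ≤ 1) (haβ : a ≤ β) (hβd : β ≤ d) (T : ℕ) (l : Fin T → ℝ) (hl : ∀ t, 0 < l t)
    (hprod : ∀ i : ℕ, a ≤ β * ∏ t : Fin T, (if i ≤ t.val then l t else 1) ∧
        β * ∏ t : Fin T, (if i ≤ t.val then l t else 1) ≤ d) :
    (∏ t, (1 + l t) ^ m) * (((1 - (1 - a) ^ n) / (1 + d)) ^ T * a) ≤ GW n m T 1 l := by
  refine le_trans ?_ (chain n m hm β a d ha hd haβ hβd T l hl hprod 1 hn)
  have h0 := hprod 0
  simp only [Nat.zero_le, if_true] at h0
  have had : a ≤ 1 := by linarith
  have hd0 : 0 < d := lt_of_lt_of_le ha (le_trans haβ hβd)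
  have h1a : 0 ≤ 1 - (1 - a) ^ n := by
    have := pow_le_one₀ (n := n) (show 0 ≤ 1 - a by linarith) (by linarith)
    linarith
  have hP0 : 0 < ∏ t, (1 + l t) ^ m := Finset.prod_pos (fun t _ => by
    have := hl t
    positivity)
  apply mul_le_mul_of_nonneg_left _ hP0.le
  apply mul_le_mul_of_nonneg_left _ (by positivity)
  rw [pow_one]
  linarith [h0.1]

end Vale.P346.H32
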